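import Vale.Agent.P223K.Kill
import Vale.Agent.P223A.Defs

/-!
# P223K: the statement `BLS` (helper29)
-/

open Filter Topology Set Real
open scoped ContDiff
open Vale.Agent.P366M Vale.Agent.P210G Vale.Agent.P210U Vale.Agent.P210E Vale.Agent.P210K
open Vale.Agent.P223Y Vale.Agent.P223F Vale.Agent.P223A
open Vale.Agent.P223U (Ph)
open Vale.Agent.P366H (DD DD_ge s1 s1_le s1_nn hd0 sm_st)

noncomputable section

namespace Vale.Agent.P223K

theorem zn_iff {q J : ℕ} {X : Type} {ρ : ℝ} {T : Fin J → X → ℝ} {x : X} :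
    Zn q ρ T x ↔ q ≤ nt ρ fun i => T i x := by
  refine ⟨fun ⟨e, he, h⟩ => ?_, fun h => ?_⟩
  · simpa [nt] using Finset.card_le_card_of_injOn (s := Finset.univ) e
      (t := Finset.univ.filter fun i => |T i x| ≤ ρ) (fun i _ => by simpa using h i) he.injOn
  · obtain ⟨e, he⟩ := Function.Embedding.exists_of_card_le_finset (α := Fin q)
      ((Fintype.card_fin q).trans_le h)
    exact ⟨e, e.injective, fun i => by simpa using he ⟨i, rfl⟩⟩

theorem rn_map {n : ℕ} {X Γ V W : Type} [Mf0 n X] [Group Γ] [MulAction Γ X] {F : Fr Γ}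
    {σ : F.Ω → X → V} (t : Tr σ) (i : Inv Γ σ) (φ : V → W) : Rn F fun o x => φ (σ o x) :=
  ⟨t.map fun _ => φ, fun γ o x => congrArg φ (i γ o x)⟩

theorem bls {n : ℕ} (hn : 2 ≤ n) : BLS n := fun J => by
  classical
  obtain ⟨k, rfl⟩ := Nat.exists_eq_add_of_le' hn
  obtain ⟨C, C1, κ, κ0, κ1, H⟩ := kill (blq (bl (k + 1)) (show k + 1 ≤ k + 2 + 1 by omega))
    (Finset.univ.filter fun e : Fin (k + 2 + 1) → Fin J => e.Injective) (by simp)
  refine ⟨κ / 4, by positivity, by linarith, fun s A₀ T₀ B ρ s0 A1 B1 hρ => ?_⟩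
  have ρ0 : 0 < ρ := by
    by_contra h
    nlinarith [not_lt.1 h]
  have ρ2 : 2 ≤ ρ := by nlinarith
  have l1 : 1 ≤ √A₀ := one_le_sqrt.2 A1
  have l2 : √A₀ ^ 2 = A₀ := sq_sqrt (by linarith)
  have D1 := DD_ge
  obtain ⟨ε₁, e1, H⟩ := H (A₀ + |T₀| * C ^ 2 * A₀ + 1) (A₀ + |T₀| * C ^ 2 * A₀) (by positivity)
    (lt_add_one _)
  set ε₀ := min (ε₁ / √A₀) (C * √A₀ * (1 + 2 * (C * B) * DD))⁻¹ with hε
  have e0 : 0 < ε₀ := by positivity
  have e2 : √A₀ * ε₀ ≤ ε₁ := (le_div_iff₀' (by linarith)).1 (min_le_left _ _)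
  have e3 : C * √A₀ * (1 + 2 * (C * B) * DD) * ε₀ ≤ 1 := (mul_le_mul_of_nonneg_left
    (min_le_right _ _) (by positivity)).trans_eq (mul_inv_cancel₀ (by positivity))
  have e4 : C * (√A₀ * ε₀) ≤ 1 := by
    linarith [show 0 ≤ C * √A₀ * (2 * (C * B) * DD) * ε₀ by positivity]
  refine ⟨max (A₀ + |T₀| * C ^ 2 * A₀ + 1) (T₀ + 1), ε₀, e0,
    fun X Γ _ _ _ g₀ χ G F K D A T r L Λ g v lam ρr L0 Λ0 hη sc st rl hb => ?_⟩
  have η0 : 0 < B * Λ / L := by positivity
  have gT : ∀ o x i, gn (g o) (T i o) x ≤ B * Λ / L := fun o x i =>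
    ((hb o x).2.2.2.1 i).trans (div_le_div_of_nonneg_right (hb o x).2.1 L0.le)
  have ab : ∀ t c : ℝ, |2 / ρ * t| ≤ c ↔ |t| ≤ c * ρ / 2 := fun t c => by
    rw [abs_mul, abs_of_pos (by positivity), div_mul_eq_mul_div, div_le_iff₀ ρ0, le_div_iff₀' two_pos]
  set σ : F.Ω → X → Sv (k + 2) J := fun o =>
    mk (g o) (v o) (fun _ => √A₀) fun i x => 2 / ρ * T i o x with hσ
  have zl : ∀ o x, Zn (k + 2 + 1) 2 (sT (σ o)) x → Λ ≤ lam o x := fun o x ⟨e, he, p⟩ =>
    (hb o x).2.2.2.2.1 (zn_iff.1 ⟨e, he, fun i => ((ab _ _).1 (p i)).trans_eq (by ring)⟩)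
  have pR : ∀ o x, Λ / 2 ≤ lam o x → _ := fun o x p => max_le_iff.1 ((hb o x).2.2.2.2.2 p)
  obtain ⟨τ, i2, t2, g2, kr⟩ := H (√A₀ * (2 / ρ * (B * Λ / L))) (by positivity)
    (le_trans (by gcongr; exact (mul_le_of_le_one_left η0.le ((div_le_one ρ0).2 ρ2)).trans hη) e2)
    X Γ F K D A σ G.deck sc.cK sc.cD sc.sub sc.clo sc.sep
    (fun γ o x => by
      simp only [hσ, mk, st.rg.inv γ o x, fun i => (sc.rs i).inv γ o x, st.rv.inv γ o x])
    (st.rg.tr.prod (st.rv.tr.prod ((tr_const _).prod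
      (tr_pi fun i => (sc.rs i).tr.map fun _ t => 2 / ρ * t))))
    (fun o => ⟨⟨st.met o, st.cc o, cd_const, fun _ => by positivity⟩,
      fun i => CD.mul cd_const ((sc.rs i).sm o)⟩)
    (fun i o x p => sc.sup i o x (by linarith [(abs_le.1 ((ab _ _).1 p)).1]))
    fun o x p => ⟨by
      have := (pR o x (by linarith [zl o x p])).1
      change _ ≤ √A₀ ^ 2 * Rv (g o) (v o) x
      rw [l2]
      exact this.trans (le_mul_of_one_le_left (le_trans (by positivity) this) A1),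
      (gn_zero fun i => pd_const _ i x).trans_le (by positivity), fun i => by
        change √A₀ * gn (g o) (fun x => 2 / ρ * T i o x) x ≤ _
        rw [gn_of_pd (u' := T i o) fun j => pd_const_mul _ j, abs_of_pos (by positivity)]
        gcongr
        exact gT o x i⟩
  have eT : ∀ o x i, sT (τ o) i x = sT (σ o) i x → ρ / 2 * sT (τ o) i x = T i o x :=
    fun o x i p => by rw [p]; change ρ / 2 * (2 / ρ * T i o x) = _; field_simp
  have sd : ∀ o x i, ρ / 2 ≤ |T i o x| → ρ / 2 * sT (τ o) i x = T i o x := fun o x i p =>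
    eT o x i ((kr o x).side i (by
      change 1 ≤ |2 / ρ * T i o x|
      rw [abs_mul, abs_of_pos (by positivity), div_mul_eq_mul_div, le_div_iff₀ ρ0]
      linarith))
  set p : F.Ω → X → ℝ := fun o x =>
    L⁻¹ * (lam o x + C * B * Λ * smoothTransition (2 / Λ * lam o x - 1)) with hp
  have p1 : ∀ o x, lam o x / L ≤ p o x := fun o x => by
    rw [div_eq_inv_mul]
    have := smoothTransition.nonneg (2 / Λ * lam o x - 1)
    exact mul_le_mul_of_nonneg_left (le_add_of_nonneg_right (by positivity)) (by positivity)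
  have p0 : ∀ o x, 0 < p o x := fun o x => (div_pos (hb o x).1 L0).trans_le (p1 o x)
  have gp : ∀ o x, gn (g o) (p o) x ≤ (1 + 2 * (C * B) * DD) * ε₀ * p o x := fun o x => by
    have d : HasDerivAt (fun t => L⁻¹ * (t + C * B * Λ * smoothTransition (2 / Λ * t - 1)))
        (L⁻¹ * (1 + C * B * Λ * (s1 (2 / Λ * lam o x - 1) * (2 / Λ)))) (lam o x) :=
      ((hasDerivAt_id' _).add (((hd0 _).comp _ (((hasDerivAt_id' _).const_mul _).sub_const
        _)).const_mul _)).const_mul _ |>.congr_deriv (by simp)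
    have a1 := s1_nn (2 / Λ * lam o x - 1)
    rw [gn_comp d ((rl.sm o).diff _), abs_of_pos (by positivity),
      show C * B * Λ * (s1 (2 / Λ * lam o x - 1) * (2 / Λ)) = 2 * (C * B) *
        s1 (2 / Λ * lam o x - 1) by field_simp]
    calc _ ≤ L⁻¹ * (1 + 2 * (C * B) * DD) * (ε₀ * lam o x) := by
          gcongr
          exacts [gn_nonneg _ _ _, s1_le _, (hb o x).2.2.1]
      _ = (1 + 2 * (C * B) * DD) * ε₀ * (lam o x / L) := by ring
      _ ≤ _ := by gcongr; exact p1 o x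
  have ll : ∀ o x, sl (τ o) x ≤ C * √A₀ := fun o x => by
    by_cases z : Zn (k + 2 + 1) 2 (sT (σ o)) x
    · exact ((kr o x).on z).2
    · simp only [sl, ((kr o x).off z).self_of_nhds]
      exact le_mul_of_one_le_left (by positivity) C1
  have up : ∀ o u x, gn (sg (τ o)) u x ≤ gn (g o) u x := fun o =>
    Up.gn_le (fun x => (kr o x).up) (st.met o) (g2 o).ok.met
  have dr0 : ∀ (g : Fld (k + 2) X) x, 0 ≤ dr g₀ g x := fun g x => by unfold dr; positivity
  have ph0 : ∀ y, T₀ ≤ y → Ph s T₀ y = 0 := fun y h =>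
    max_eq_right (sub_nonpos.2 (exp_le_exp.2 (by nlinarith)))
  have rn : ∀ {W : Type} (φ : Sv (k + 2) J → W), Rn F fun o x => φ (τ o x) := rn_map t2 i2
  refine ⟨fun o => sg (τ o), fun o => sv (τ o), fun o => sl (τ o), p,
    fun i o x => ρ / 2 * sT (τ o) i x, ⟨rn _, rn (·.2.1), fun o => (g2 o).ok.met,
      fun o => (g2 o).ok.cc⟩, ⟨sc.cK, sc.cD, sc.sub, sc.clo, sc.sep, fun i =>
        ⟨rn fun a => ρ / 2 * a.2.2.2 i, fun o => CD.mul cd_const ((g2 o).sm i)⟩,
        fun i o x q => sc.sup i o x ?_, fun o x => (sc.cov o x).imp fun i q => ?_⟩,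
    ⟨rn (·.2.2.1), fun o => (g2 o).ok.sml⟩, ⟨rn_map rl.tr rl.inv
      fun t => L⁻¹ * (t + C * B * Λ * smoothTransition (2 / Λ * t - 1)), fun o =>
      CD.mul cd_const (CD.add (rl.sm o) (CD.mul cd_const (sm_st.compM
        (CD.sub (CD.mul cd_const (rl.sm o)) cd_const))))⟩, fun o x => ?_⟩
  · by_contra h
    rw [sd o x i (le_abs.2 (.inr (by linarith [not_lt.1 h])))] at q
    exact h q
  · rwa [sd o x i (le_abs.2 (.inl (by linarith)))]
  beta_reduce
  have l0 := (g2 o).ok.l0 x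
  have G1 : sl (τ o) x * gn (sg (τ o)) (p o) x ≤ p o x := by
    refine (mul_le_mul (ll o x) ((up o _ x).trans (gp o x)) (gn_nonneg _ _ _)
      (by positivity)).trans ?_
    exact le_trans (le_of_eq (by ring)) (mul_le_of_le_one_left (p0 o x).le e3)
  have G2 : (nt 2 fun i => ρ / 2 * sT (τ o) i x) ≤ k + 2 := by
    by_contra h
    obtain ⟨e, he, q⟩ := (zn_iff (T := fun i x => ρ / 2 * sT (τ o) i x)).2 (not_le.1 h)
    obtain ⟨i, hi⟩ := (kr o x).low e (by simpa using he)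
    have := q i
    rw [abs_mul, abs_of_pos (by positivity)] at this
    linarith [mul_le_mul_of_nonneg_left hi ρ0.le]
  have G3 : ∀ i, gn (sg (τ o)) (fun x => ρ / 2 * sT (τ o) i x) x =
      ρ / 2 * gn (sg (τ o)) (sT (τ o) i) x := fun i => by
    rw [gn_of_pd (u' := sT (τ o) i) fun j => pd_const_mul _ j, abs_of_pos (by positivity)]
  by_cases z : Zn (k + 2 + 1) 2 (sT (σ o)) x
  · obtain ⟨⟨b1, b2, b3⟩, -⟩ := (kr o x).on z
    have b4 : ∀ i, sl (τ o) x * gn (sg (τ o)) (fun x => ρ / 2 * sT (τ o) i x) x ≤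
        C * (√A₀ * (B * Λ / L)) := fun i => by
      rw [G3, mul_left_comm]
      exact (mul_le_mul_of_nonneg_left (b3 i) (by positivity)).trans_eq (by field_simp)
    have b5 : C * (B * Λ / L) ≤ p o x := by
      simp only [hp]
      rw [smoothTransition.one_of_one_le (by
        rw [le_sub_iff_add_le, div_mul_eq_mul_div, le_div_iff₀ Λ0]; linarith [zl o x z])]
      have : 0 ≤ L⁻¹ * lam o x := mul_nonneg (by positivity) (hb o x).1.le
      calc _ = L⁻¹ * (C * B * Λ * 1) := by ring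
        _ ≤ _ := by linarith [mul_add L⁻¹ (lam o x) (C * B * Λ * 1)]
    refine ⟨⟨l0, p0 o x, b2.trans (le_trans ?_ e4), G1, fun i =>
      ⟨(b4 i).trans (le_trans (by gcongr) e4), ?_⟩, G2⟩, fun h => (h.not_ge (zl o x z)).elim, ?_⟩
    · gcongr
      exact (mul_le_of_le_one_left η0.le ((div_le_one ρ0).2 ρ2)).trans hη
    · have b6 : √A₀ / sl (τ o) x ≤ 1 + A₀ / sl (τ o) x ^ 2 := by
        rw [← l2, sqrt_sq (by positivity), ← div_pow]
        linarith [sq_nonneg (√A₀ / sl (τ o) x - 1), sq_nonneg (√A₀ / sl (τ o) x)]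
      refine le_trans ?_ (mul_le_mul b5 b6 (by positivity) (p0 o x).le)
      rw [← mul_div_assoc, le_div_iff₀' l0]
      exact (b4 i).trans_eq (by ring)
    · rw [ph0, zero_mul, zero_mul]
      · exact mul_nonneg (mul_nonneg (le_max_right _ _) (pow_pos (div_pos (hb o x).1 L0) _).le)
          (dr0 _ _)
      · rw [le_sub_iff_add_le', ← mul_le_mul_iff_right₀ (pow_pos l0 2), mul_add,
          mul_div_cancel₀ _ (pow_pos l0 2).ne']
        have : sl (τ o) x ^ 2 ≤ C ^ 2 * A₀ := by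
          rw [← l2, ← mul_pow]
          exact pow_le_pow_left₀ l0.le (ll o x) 2
        linarith [mul_le_mul_of_nonneg_right this (abs_nonneg T₀),
          mul_le_mul_of_nonneg_left (le_abs_self T₀) (pow_pos l0 2).le]
  · have ev := (kr o x).off z
    have e5 : sg (τ o) =ᶠ[𝓝 x] g o := ev.fun_comp Prod.fst
    have e6 : sl (τ o) x = √A₀ := congrArg (·.2.2.1) ev.self_of_nhds
    have e7 : ∀ i, gn (sg (τ o)) (fun x => ρ / 2 * sT (τ o) i x) x = gn (g o) (T i o) x := fun i =>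
      gn_of_ev e5 (ev.mono fun y q => eT o y i (by simp only [sT, q]))
    have e8 : A₀ / sl (τ o) x ^ 2 = 1 := by rw [e6, l2, div_self (by linarith)]
    refine ⟨⟨l0, p0 o x, (gn_of_ev e5 (u' := fun _ => √A₀) (ev.fun_comp (·.2.2.1))).trans_le
      ((gn_zero fun i => pd_const _ i x).trans_le zero_le_one), G1, fun i => ⟨?_, ?_⟩, G2⟩,
      fun _ i => eT o x i (by simp only [sT, ev.self_of_nhds]), ?_⟩
    · rw [e7, e6]
      exact ((mul_le_mul_of_nonneg_left ((gT o x i).trans hη) (sqrt_nonneg A₀)).trans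
        (le_mul_of_one_le_left (by positivity) C1)).trans e4
    · rw [e7, e8]
      linarith [((hb o x).2.2.2.1 i).trans (p1 o x), p0 o x]
    · rw [e8, Rv_of_ev e5 (v := sv (τ o)) (v' := v o) fun i => ev.fun_comp (·.2.1 i)]
      rcases le_total (Λ / 2) (lam o x) with q | q
      · rw [ph0 _ (by linarith [(pR o x q).2])]
        simp
      · simp only [hp, dr, mat, e5.self_of_nhds]
        rw [smoothTransition.zero_of_nonpos (by
          rw [sub_nonpos, div_mul_eq_mul_div, div_le_one Λ0]; linarith), mul_zero, add_zero,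
          ← div_eq_inv_mul]

end Vale.Agent.P223K
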