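import Vale.Agent.P223K.Loc
import Vale.Agent.P210K.Blq
import Vale.Agent.P210E.Bl

/-!
# P223K: the radial lemma for all tuples of scores (helper29)
-/

open Filter Topology Set
open scoped ContDiff
open Vale.Agent.P366M Vale.Agent.P210G Vale.Agent.P210U Vale.Agent.P210E Vale.Agent.P210K
open Vale.Agent.P223Y Vale.Agent.P223F

noncomputable section

namespace Vale.Agent.P223K

/-- the values of a state: metric, drift, scale, scores -/
abbrev Sv (n N : ℕ) := (Fin n → Fin n → ℝ) × (Fin n → ℝ) × ℝ × (Fin N → ℝ)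

section Det

variable {n N q : ℕ} {X : Type}

abbrev sg (s : X → Sv n N) : Fld n X := fun x => (s x).1

abbrev sv (s : X → Sv n N) : Fin n → X → ℝ := fun i x => (s x).2.1 i

abbrev sl (s : X → Sv n N) : X → ℝ := fun x => (s x).2.2.1

abbrev sT (s : X → Sv n N) : Fin N → X → ℝ := fun r x => (s x).2.2.2 r

/-- the state with given components -/
abbrev mk (g : Fld n X) (v : Fin n → X → ℝ) (l : X → ℝ) (T : Fin N → X → ℝ) : X → Sv n N :=
  fun x => (g x, fun i => v i x, l x, fun r => T r x)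

/-- `q` different scores have absolute value at most `ρ` -/
def Zn (q : ℕ) (ρ : ℝ) (T : Fin N → X → ℝ) (x : X) : Prop :=
  ∃ e : Fin q → Fin N, e.Injective ∧ ∀ i, |T (e i) x| ≤ ρ

/-- `g ≤ g'` at `x` -/
def Upa (g g' : Fld n X) (x : X) : Prop :=
  ∀ ξ : Fin n → ℝ, ∑ i, ∑ j, g x i j * ξ i * ξ j ≤ ∑ i, ∑ j, g' x i j * ξ i * ξ j

variable [Mf0 n X] {s t s' t' : X → Sv n N} {x : X} {a b C ρ κ ε : ℝ} {e : Fin q → Fin N}

/-- smooth states -/
structure Gd (s : X → Sv n N) : Prop where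
  ok : Ok (sg s) (sv s) (sl s)
  sm : ∀ r, Smooth (sT s r)

/-- the bounds of the radial lemma -/
def Bn (a ε : ℝ) (s : X → Sv n N) (x : X) : Prop := a ≤ sl s x ^ 2 * Rv (sg s) (sv s) x ∧
  gn (sg s) (sl s) x ≤ ε ∧ ∀ r, sl s x * gn (sg s) (sT s r) x ≤ ε

theorem Gd.loc (h : ∀ x, ∃ u, Gd u ∧ t =ᶠ[𝓝 x] u) : Gd t :=
  ⟨⟨met_loc fun x => (h x).elim fun u k => ⟨_, k.1.ok.met, k.2.fun_comp Prod.fst⟩,
    cc_loc fun x => (h x).elim fun u k => ⟨_, k.1.ok.cc, fun i => k.2.fun_comp (·.2.1 i)⟩,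
    sm_loc fun x => (h x).elim fun u k => ⟨_, k.1.ok.sml, k.2.fun_comp (·.2.2.1)⟩,
    fun x => (h x).elim fun u k => by simpa only [sl, k.2.self_of_nhds] using k.1.ok.l0 x⟩,
    fun r => sm_loc fun x => (h x).elim fun u k => ⟨_, k.1.sm r, k.2.fun_comp (·.2.2.2 r)⟩⟩

theorem Gd.nat {Φ : X → X} (c : Cm Φ) (h : Gd s) : Gd fun z => s (Φ z) :=
  ⟨⟨c.met h.ok.met, c.cc le_rfl h.ok.cc, c.smooth h.ok.sml, fun _ => h.ok.l0 _⟩,
    fun r => c.smooth (h.sm r)⟩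

theorem Bn.germ (k : t =ᶠ[𝓝 x] s) (h : Bn a ε s x) : Bn a ε t x := by
  have e : sg t =ᶠ[𝓝 x] sg s := k.fun_comp Prod.fst
  refine ⟨?_, (gn_of_ev e (k.fun_comp (·.2.2.1))).trans_le h.2.1, fun r => ?_⟩
  · rw [Rv_of_ev e (v := sv t) (v' := sv s) fun i => k.fun_comp (·.2.1 i)]
    simpa only [sl, k.self_of_nhds] using h.1
  · rw [gn_of_ev e (u := sT t r) (u' := sT s r) (k.fun_comp (·.2.2.2 r))]
    simpa only [sl, k.self_of_nhds] using h.2.2 r

theorem Bn.nat {Φ : X → X} (c : Cm Φ) (h : Bn a ε s (Φ x)) : Bn a ε (fun z => s (Φ z)) x :=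
  ⟨h.1.trans_eq (congrArg _ (congrFun (c.Rv (sg s) (sv s)) x).symm),
    (congrFun (c.gn (sg s) (sl s)) x).trans_le h.2.1,
    fun r => (congrArg _ (congrFun (c.gn (sg s) (sT s r)) x)).trans_le (h.2.2 r)⟩

theorem Bn.mono {ε' : ℝ} (h : Bn a ε s x) (ha : b ≤ a) (he : ε ≤ ε') : Bn b ε' s x :=
  ⟨ha.trans h.1, h.2.1.trans he, fun r => (h.2.2 r).trans he⟩

/-- the result of one application of the radial lemma -/
structure Sr (e : Fin q → Fin N) (b C ρ κ ε : ℝ) (s t : X → Sv n N) (x : X) : Prop where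
  up : Upa (sg s) (sg t) x
  side : ∀ r, ρ ≤ |sT s r x| → sT t r x = sT s r x
  low : ∃ i, κ ≤ |sT t (e i) x|
  alt : t =ᶠ[𝓝 x] s ∨ (∀ i, |sT s (e i) x| ≤ 2) ∧ Bn b ε t x ∧ sl t x ≤ C * sl s x

theorem Sr.germ (k : s' =ᶠ[𝓝 x] s) (k' : t' =ᶠ[𝓝 x] t) (h : Sr e b C ρ κ ε s t x) :
    Sr e b C ρ κ ε s' t' x := by
  have e1 := k.self_of_nhds
  have e2 := k'.self_of_nhds
  refine ⟨by simpa only [Upa, sg, e1, e2] using h.up, by simpa only [sT, e1, e2] using h.side,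
    by simpa only [sT, e2] using h.low, h.alt.imp (fun p => k'.trans (p.trans k.symm)) fun p =>
      ⟨by simpa only [sT, e1] using p.1, p.2.1.germ k', by simpa only [sl, e1, e2] using p.2.2⟩⟩

theorem Sr.nat {Φ : X → X} (c : Cm Φ) (h : Sr e b C ρ κ ε s t (Φ x)) :
    Sr e b C ρ κ ε (fun z => s (Φ z)) (fun z => t (Φ z)) x :=
  ⟨h.up, h.side, h.low, h.alt.imp (fun p => p.comp_tendsto (c.cont.tendsto x)) fun p =>
    ⟨p.1, p.2.1.nat c, p.2.2⟩⟩

theorem Sr.of_ev (k : t =ᶠ[𝓝 x] s) (h : ∃ i, κ ≤ |sT s (e i) x|) : Sr e b C ρ κ ε s t x := by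
  have e1 := k.self_of_nhds
  exact ⟨fun ξ => by simp only [sg, e1, le_refl], fun r _ => by simp only [sT, e1],
    by simpa only [sT, e1] using h, .inl k⟩

/-- the result of the radial lemma for the tuples in `S` -/
structure Kr (S : Finset (Fin q → Fin N)) (b C ρ ε : ℝ) (s t : X → Sv n N) (x : X) : Prop where
  up : Upa (sg s) (sg t) x
  side : ∀ r, 1 ≤ |sT s r x| → sT t r x = sT s r x
  low : ∀ e ∈ S, ∃ i, ρ ≤ |sT t (e i) x|
  off : ¬Zn q 2 (sT s) x → t =ᶠ[𝓝 x] s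
  on : Zn q 2 (sT s) x → Bn b ε t x ∧ sl t x ≤ C * sl s x

theorem Kr.zn {S : Finset (Fin q → Fin N)} (h : Kr S b C ρ ε s t x) (he : e.Injective)
    (k : ∀ i, |sT t (e i) x| ≤ 2) : Zn q 2 (sT s) x := by
  by_contra p
  exact p ⟨e, he, by simpa only [sT, (h.off p).self_of_nhds] using k⟩

theorem Kr.two {S : Finset (Fin q → Fin N)} (h : Kr S b C ρ ε s t x) {r : Fin N}
    (k : |sT t r x| ≤ 2) : |sT s r x| ≤ 2 := by
  by_contra p
  exact p (h.side r (by linarith [not_le.1 p]) ▸ k)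

theorem Kr.step {S : Finset (Fin q → Fin N)} {C' C'' ε' : ℝ} (h : Kr S a C ρ ε s t x)
    (k : Sr e b C' ρ κ ε' t t' x) (he : e.Injective) (ρ1 : ρ ≤ 1) (hκ : κ ≤ ρ) (ba : b ≤ a)
    (ee : ε ≤ ε') (l0 : 0 ≤ sl s x) (C0 : 0 ≤ C') (c1 : C ≤ C'') (c2 : C' * C ≤ C'') :
    Kr (insert e S) b C'' κ ε' s t' x := by
  refine ⟨fun ξ => (h.up ξ).trans (k.up ξ), fun r p => ?_, fun e' he' => ?_, fun p => ?_,
    fun p => ?_⟩
  · exact (k.side r (ρ1.trans (h.side r p ▸ p))).trans (h.side r p)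
  · rcases Finset.mem_insert.1 he' with rfl | p
    · exact k.low
    · obtain ⟨i, hi⟩ := h.low e' p
      exact ⟨i, (k.side _ hi).symm ▸ hκ.trans hi⟩
  · exact (k.alt.resolve_right fun r => p (h.zn he r.1)).trans (h.off p)
  · obtain ⟨p1, p2⟩ := h.on p
    rcases k.alt with r | r
    · refine ⟨(p1.germ r).mono ba ee, ?_⟩
      simp only [sl, r.self_of_nhds]
      exact p2.trans (mul_le_mul_of_nonneg_right c1 l0)
    · exact ⟨r.2.1, (r.2.2.trans (mul_le_mul_of_nonneg_left p2 C0)).trans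
        ((mul_assoc _ _ _).ge.trans (mul_le_mul_of_nonneg_right c2 l0))⟩

end Det

theorem exists_big {q : ℕ} {c : ℝ} (a : Fin (q + 1) → ℝ) (h : c ≤ ∑ i, a i ^ 2) :
    ∃ i, √(c / (q + 1)) ≤ |a i| := by
  obtain ⟨i, -, hi⟩ := Finset.exists_le_of_sum_le (s := Finset.univ) Finset.univ_nonempty
    (f := fun _ : Fin (q + 1) => c / (q + 1)) (g := fun i => a i ^ 2)
    (le_trans (by simp; field_simp; rfl) h)
  exact ⟨i, Real.sqrt_le_iff.2 ⟨abs_nonneg _, by rwa [sq_abs]⟩⟩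

/-- one application of the radial lemma -/
theorem step_det {m q : ℕ} (h : BLq m (q + 1)) : ∃ C ≥ (1 : ℝ), ∃ κ > (0 : ℝ), κ ≤ 1 ∧
    ∀ a b : ℝ, 0 < b → b < a → ∃ ε₀ > (0 : ℝ), ∀ ε ρ, 0 < ε → 0 < ρ → ρ ≤ 1 → ε / ρ ≤ ε₀ →
    ∀ (N : ℕ) (X : Type) [Mf0 (m + 1) X] (s : X → Sv (m + 1) N) (e : Fin (q + 1) → Fin N)
      (O D : Set X), Gd s → e.Injective → IsOpen O → IsCompact D → D ⊆ O →
      (∀ x ∈ O, (∀ i, |sT s (e i) x| ≤ 2) → x ∈ D ∧ Bn a ε s x) →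
      ∃ t, Gd t ∧ (∀ x ∉ D, t x = s x) ∧ ∀ x ∈ D, Sr e b C ρ (κ * ρ) (C * (ε / ρ)) s t x := by
  obtain ⟨C, C1, c, c0, H⟩ := h
  refine ⟨C, C1, min 1 √(c / (q + 1)), by positivity, min_le_left _ _, fun a b b0 ba => ?_⟩
  obtain ⟨ε₀, e0, H⟩ := H a (b0.trans ba) (a - b) (sub_pos.2 ba)
  refine ⟨ε₀, e0, fun ε ρ ε0 ρ0 ρ1 εe N X _ s e O D gd he hO hD DO hb => ?_⟩
  set G : Fin (q + 1) → X → ℝ := fun i x => ρ⁻¹ * sT s (e i) x with hG
  have sG : ∀ i, Smooth (G i) := fun i => CD.mul cd_const (gd.sm _)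
  have eG : ∀ i x, ρ * G i x = sT s (e i) x := fun i x => mul_inv_cancel_left₀ ρ0.ne' _
  have k2 : ∀ x ∈ K4 G O, ∀ i, |sT s (e i) x| ≤ 2 := fun x hx i => by
    have := abs_le_of_sq_le_sq' (a := G i x) (b := 2) (((nsq_ge G x i).trans hx.2).trans_eq
      (by norm_num)) (by norm_num)
    rw [← eG, abs_mul, abs_of_pos ρ0]
    nlinarith [abs_le.2 this, abs_nonneg (G i x)]
  have cK : IsCompact (K4 G O) := by
    have : K4 G O = D ∩ {x | nsq G x ≤ 4} := Subset.antisymm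
      (fun x hx => ⟨(hb x hx.1 (k2 x hx)).1, hx.2⟩) fun x hx => ⟨DO hx.1, hx.2⟩
    exact this ▸ hD.inter_right (isClosed_le (sm_nsq sG).cont continuous_const)
  have ee : ε ≤ ε / ρ := le_div_self ε0.le ρ0 ρ1
  obtain ⟨g', v', l', G', o⟩ := H (ε / ρ) (by positivity) εe X (sg s) (sv s) (sl s) G O
    ⟨gd.ok, sG, hO, cK, fun x hx => by
      obtain ⟨b1, b2, b3⟩ := (hb x hx.1 (k2 x hx)).2
      refine ⟨b1, b2.trans ee, fun i => ?_⟩
      rw [gn_of_pd (u' := sT s (e i)) fun j => pd_const_mul _ j, abs_of_pos (inv_pos.2 ρ0),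
        mul_left_comm, div_eq_inv_mul]
      exact mul_le_mul_of_nonneg_left (b3 _) (inv_pos.2 ρ0).le⟩
  obtain ⟨k1, k2', k3⟩ := o.rch.ok gd.ok.met gd.ok.cc (Up.rfl' _)
  set T' := Function.extend e (fun i x => ρ * G' i x) (sT s) with hT
  have T1 : ∀ i, T' (e i) = fun x => ρ * G' i x := fun i => he.extend_apply _ _ i
  have T2 : ∀ r, (¬∃ i, e i = r) → T' r = sT s r := fun r => Function.extend_apply' _ _ r
  have T3 : ∀ x, x ∉ O ∨ 1 ≤ nsq G x → ∀ r, T' r x = sT s r x := fun x hx r => by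
    by_cases p : ∃ i, e i = r
    · obtain ⟨i, rfl⟩ := p
      rw [T1, ← eG]
      simp only [o.eqG x hx]
    · rw [T2 r p]
  have off : ∀ x ∉ K4 G O, mk g' v' l' T' x = s x := fun x hx =>
    Prod.ext (o.rch.same x hx).1.symm (Prod.ext (funext fun i => ((o.rch.same x hx).2 i).symm)
      (Prod.ext (o.off x hx) (funext (T3 x (by
        by_cases p : x ∈ O
        · exact .inr (le_trans (by norm_num) (not_le.1 fun r => hx ⟨p, r⟩).le)
        · exact .inl p)))))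
  refine ⟨mk g' v' l' T', ⟨⟨k1, k2', o.sml, o.l0⟩, fun r => ?_⟩,
    fun x hx => off x fun p => hx (hb x p.1 (k2 x p)).1, fun x hx => ⟨k3 x, fun r hr => ?_, ?_, ?_⟩⟩
  · change Smooth (T' r)
    by_cases p : ∃ i, e i = r
    · obtain ⟨i, rfl⟩ := p
      exact T1 i ▸ CD.mul cd_const (o.smG i)
    · exact T2 r p ▸ gd.sm r
  · by_cases p : ∃ i, e i = r
    · obtain ⟨i, rfl⟩ := p
      refine T3 x (.inr (le_trans ?_ (nsq_ge G x i))) _
      rw [← eG, abs_mul, abs_of_pos ρ0, le_mul_iff_one_le_right ρ0] at hr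
      exact (one_le_sq_iff_one_le_abs _).2 hr
    · exact congrFun (T2 r p) x
  · obtain ⟨i, hi⟩ := exists_big (fun i => G' i x) (o.low x (DO hx))
    refine ⟨i, ?_⟩
    change _ ≤ |T' (e i) x|
    simp only [T1, abs_mul, abs_of_pos ρ0]
    rw [mul_comm]
    exact mul_le_mul_of_nonneg_left ((min_le_right _ _).trans hi) ρ0.le
  · by_cases p : x ∈ K4 G O
    · obtain ⟨b1, b2, b3, b4⟩ := o.bd x p
      refine .inr ⟨k2 x p, ⟨by simpa using b1, b3, fun r => ?_⟩, b2⟩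
      by_cases p' : ∃ i, e i = r
      · obtain ⟨i, rfl⟩ := p'
        change l' x * gn g' (T' (e i)) x ≤ _
        rw [T1, gn_of_pd (u' := G' i) fun j => pd_const_mul _ j, abs_of_pos ρ0, mul_left_comm]
        exact (mul_le_of_le_one_left (mul_nonneg (o.l0 x).le (gn_nonneg _ _ _)) ρ1).trans (b4 i)
      · change l' x * gn g' (T' r) x ≤ _
        rw [T2 r p']
        refine (mul_le_mul b2 (k3.gn_le gd.ok.met k1 _ x) (gn_nonneg _ _ _)
          ((o.l0 x).le.trans b2)).trans ?_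
        rw [mul_assoc]
        exact mul_le_mul_of_nonneg_left (((hb x p.1 (k2 x p)).2.2.2 r).trans ee) (by linarith)
    · exact .inl (eventually_of_mem (cK.isClosed.isOpen_compl.mem_nhds p) off)

/-- **the radial lemma for all tuples of scores in `S`**, simultaneously on all translates -/
theorem kill {m q N : ℕ} (h : BLq m (q + 1)) (S : Finset (Fin (q + 1) → Fin N))
    (hS : ∀ e ∈ S, e.Injective) : ∃ C ≥ (1 : ℝ), ∃ ρ > (0 : ℝ), ρ ≤ 1 ∧ ∀ a b : ℝ, 0 < b → b < a →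
    ∃ ε₀ > (0 : ℝ), ∀ ε, 0 < ε → ε ≤ ε₀ → ∀ (X Γ : Type) [Mf0 (m + 1) X] [Group Γ] [MulAction Γ X]
      (F : Fr Γ) (K D : Set X) (A : Fin N → Set F.Ω) (σ : F.Ω → X → Sv (m + 1) N), Deck X Γ →
      IsCompact K → IsCompact D → K ⊆ interior D → (∀ i, IsClopen (A i)) →
      (∀ i, Sep Γ (A i) D) → Inv Γ σ → Tr σ → (∀ o, Gd (σ o)) →
      (∀ i o x, |sT (σ o) i x| ≤ 2 → x ∈ Un Γ (A i) K o) →
      (∀ o x, Zn (q + 1) 2 (sT (σ o)) x → Bn a ε (σ o) x) →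
      ∃ σ' : F.Ω → X → Sv (m + 1) N, Inv Γ σ' ∧ Tr σ' ∧ (∀ o, Gd (σ' o)) ∧
        ∀ o x, Kr S b C ρ (C * ε) (σ o) (σ' o) x := by
  induction S using Finset.induction_on with
  | empty =>
    exact ⟨1, le_rfl, 1, one_pos, le_rfl, fun a b _ ba => ⟨1, one_pos,
      fun ε _ _ X Γ _ _ _ F K D A σ _ _ _ _ _ _ hI ht gd _ hb => ⟨σ, hI, ht, gd, fun o x =>
        ⟨fun _ => le_rfl, fun _ _ => rfl, by simp, fun _ => .rfl, fun p =>
          ⟨(hb o x p).mono ba.le (one_mul _).ge, (one_mul _).ge⟩⟩⟩⟩⟩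
  | insert e S _ ih =>
    obtain ⟨C, C1, ρ, ρ0, ρ1, H⟩ := ih fun e he => hS e (Finset.mem_insert_of_mem he)
    obtain ⟨C', C1', κ, κ0, κ1, H'⟩ := step_det h
    have he := hS e (Finset.mem_insert_self _ _)
    have c2 : C' * C ≤ C' * C / ρ := le_div_self (by positivity) ρ0 ρ1
    have c1 : C ≤ C' * C / ρ := le_trans (by nlinarith) c2
    refine ⟨C' * C / ρ, C1.trans c1, κ * ρ, by positivity, mul_le_one₀ κ1 ρ0.le ρ1,
      fun a b b0 ba => ?_⟩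
    obtain ⟨ε₁, e1, H⟩ := H a ((a + b) / 2) (by linarith) (by linarith)
    obtain ⟨ε₂, e2, H'⟩ := H' ((a + b) / 2) b b0 (by linarith)
    refine ⟨min ε₁ (ε₂ * ρ / C), by positivity,
      fun ε ε0 εe X Γ _ _ _ F K D A σ d cK cD KD cl sp hI ht gd un hb => ?_⟩
    obtain ⟨τ, i1, t1, g1, k1⟩ := H ε ε0 (εe.trans (min_le_left _ _)) X Γ F K D A σ d cK cD KD cl
      sp hI ht gd un hb
    obtain ⟨τ', i2, t2, g2, k2⟩ := locrel d i1 t1 (cl (e 0)) cK cD KD (sp _) (G := Gd)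
      (R := Sr e b C' ρ (κ * ρ) (C' * (C * ε / ρ))) (fun _ => Gd.loc) (fun γ _ => Gd.nat (d.cm γ))
      (fun _ _ _ _ _ => Sr.germ) (fun γ _ _ _ => Sr.nat (d.cm γ)) g1 fun o ho =>
        H' (C * ε) ρ (by positivity) ρ0 ρ1 (by
          rw [div_le_iff₀ ρ0, ← le_div_iff₀' (by linarith)]
          exact εe.trans (min_le_right _ _)) N X (τ o) e (interior D) K (g1 o) he isOpen_interior
          cK KD fun x hx p => ⟨by
            obtain ⟨γ, p1, p2⟩ := un _ o x ((k1 o x).two (p 0))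
            have := sp _ _ o ho x (interior_subset hx) p1 (interior_subset (KD p2))
            simpa [this] using p2, ((k1 o x).on ((k1 o x).zn he p)).1⟩
    refine ⟨τ', i2, t2, g2, fun o x => ?_⟩
    have ρκ : κ * ρ ≤ ρ := mul_le_of_le_one_left ρ0.le κ1
    rw [show C' * C / ρ * ε = C' * (C * ε / ρ) by ring]
    refine (k1 o x).step ?_ he ρ1 ρκ (by linarith) ?_ ((gd o).ok.l0 x).le (by linarith) c1 c2
    · by_cases p : x ∈ Un Γ (A (e 0)) K o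
      · exact (k2 o x).2 p
      · exact .of_ev ((k2 o x).1 p) ⟨0, by
          linarith [not_le.1 fun r => p (un _ o x ((k1 o x).two r))]⟩
    · exact (mul_le_mul_of_nonneg_right c1 ε0.le).trans_eq (by ring)

end Vale.Agent.P223K
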