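import Vale.Agent.P223F.Tr
import Vale.Agent.P223Y.Eqv

/-!
# P223K: simultaneous local operations on invariant fields (helper29)
-/

open Filter Topology Set
open Vale.Agent.P366M Vale.Agent.P223Y Vale.Agent.P223F

noncomputable section

namespace Vale.Agent.P223K

variable {n : ℕ} {X : Type} [Mf0 n X] {Γ : Type} [Group Γ] [MulAction Γ X] {F : Fr Γ}
  {V : Type} {D D' : Set X} {A : Set F.Ω} {σ : F.Ω → X → V}

/-- **local operations on invariant fields**: near a point the new field is the old one, or the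
pair is a translate of the pair given by a local operation -/
theorem locinv (d : Deck X Γ) (hI : Inv Γ σ) (ht : Tr σ) (hA : IsClopen A) (hD : IsCompact D)
    (hD' : IsCompact D') (hDD : D ⊆ interior D') (hs : Sep Γ A D') {R : F.Ω → (X → V) → Prop}
    (H : ∀ ω ∈ A, ∃ s, (∀ x ∉ D, s x = σ ω x) ∧ R ω s) : ∃ σ' : F.Ω → X → V, Inv Γ σ' ∧ Tr σ' ∧
      ∀ ω x, (x ∉ Un Γ A D ω → σ' ω =ᶠ[𝓝 x] σ ω) ∧ (x ∈ Un Γ A D ω → ∃ γ : Γ, ∃ ω₀ ∈ A, ∃ s,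
        γ • x ∈ D ∧ R ω₀ s ∧ (∀ x ∉ D, s x = σ ω₀ x) ∧ (σ ω =ᶠ[𝓝 x] fun z => σ ω₀ (γ • z)) ∧
          σ' ω =ᶠ[𝓝 x] fun z => s (γ • z)) := by
  let _ : MulAction Γ V :=
    { smul := fun _ a => a, one_smul := fun _ => rfl, mul_smul := fun _ _ _ => rfl }
  obtain ⟨σ', β, L⟩ := locop (B := Unit) d (σ := σ) hI ht hA hD hD' hDD hs
    (R := fun ω s _ => R ω s) fun ω a => (H ω a).imp fun s k => ⟨(), k⟩
  refine ⟨σ', L.eqv, L.tr, fun ω x => ⟨L.off ω x, fun ⟨γ, a, b⟩ => ?_⟩⟩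
  obtain ⟨ω₀, a₀, s, r, o, e⟩ := L.on _ a
  have N := ((cont_smul d γ⁻¹).tendsto x).eventually (mem_interior_iff_mem_nhds.1 (hDD b))
  exact ⟨γ⁻¹, ω₀, a₀, s, b, r, o, N.mono fun z k => ((e _ k).1.trans (hI _ _ _)).symm,
    N.mono fun z k => ((e _ k).2.trans (L.eqv _ _ _)).symm⟩

/-- **local operations, relational form**: `G` is a local property of fields, `R` a relation
between germs, both natural for translations -/
theorem locrel (d : Deck X Γ) (hI : Inv Γ σ) (ht : Tr σ) (hA : IsClopen A) (hD : IsCompact D)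
    (hD' : IsCompact D') (hDD : D ⊆ interior D') (hs : Sep Γ A D') {G : (X → V) → Prop}
    {R : (X → V) → (X → V) → X → Prop} (loc : ∀ t, (∀ x, ∃ u, G u ∧ t =ᶠ[𝓝 x] u) → G t)
    (natG : ∀ (γ : Γ) u, G u → G fun z => u (γ • z))
    (germ : ∀ s t s' t' x, s' =ᶠ[𝓝 x] s → t' =ᶠ[𝓝 x] t → R s t x → R s' t' x)
    (nat : ∀ (γ : Γ) s t x, R s t (γ • x) → R (fun z => s (γ • z)) (fun z => t (γ • z)) x)
    (hG : ∀ ω, G (σ ω))
    (H : ∀ ω ∈ A, ∃ s, G s ∧ (∀ x ∉ D, s x = σ ω x) ∧ ∀ x ∈ D, R (σ ω) s x) :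
    ∃ σ' : F.Ω → X → V, Inv Γ σ' ∧ Tr σ' ∧ (∀ ω, G (σ' ω)) ∧ ∀ ω x,
      (x ∉ Un Γ A D ω → σ' ω =ᶠ[𝓝 x] σ ω) ∧ (x ∈ Un Γ A D ω → R (σ ω) (σ' ω) x) := by
  obtain ⟨σ', a, b, c⟩ := locinv d hI ht hA hD hD' hDD hs
    (R := fun ω s => G s ∧ ∀ x ∈ D, R (σ ω) s x) fun ω a => (H ω a).imp fun s k =>
      ⟨k.2.1, k.1, k.2.2⟩
  refine ⟨σ', a, b, fun ω => loc _ fun x => ?_, fun ω x => ⟨(c ω x).1, fun q => ?_⟩⟩
  · by_cases q : x ∈ Un Γ A D ω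
    · obtain ⟨γ, ω₀, -, s, -, r, -, -, e⟩ := (c ω x).2 q
      exact ⟨_, natG γ s r.1, e⟩
    · exact ⟨_, hG ω, (c ω x).1 q⟩
  · obtain ⟨γ, ω₀, -, s, p, r, -, e, e'⟩ := (c ω x).2 q
    exact germ _ _ _ _ x e e' (nat γ _ _ x (r.2 _ p))

end Vale.Agent.P223K
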